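import Vale.Agent.Lib.P302.InstA

namespace Vale.Agent.Results.P302.A_gap_1267_144

open Vale.Agent.Lib.P302

/-- There is a bin packing instance with OPT - LP at least 173/144. -/
theorem result : ∃ I : List ℚ, (∀ a ∈ I, 0 < a ∧ a ≤ 1) ∧
    (173 / 144 : ℝ) ≤ (OPT I : ℝ) - LP I :=
  ⟨scale 720000 Vale.Agent.Lib.P302.InstA.items, Vale.Agent.Lib.P302.InstA.main.1, Vale.Agent.Lib.P302.InstA.main.2⟩

end Vale.Agent.Results.P302.A_gap_1267_144
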