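import Vale.Agent.Lib.P302.D191.T4

namespace Vale.Agent.Results.P302.A_gap_191_156

open Vale.Agent.Lib.P302

/-- There is a bin packing instance with OPT - LP at least 191/156. -/
theorem result : ∃ I : List ℚ, (∀ a ∈ I, 0 < a ∧ a ≤ 1) ∧
    (191 / 156 : ℝ) ≤ (OPT I : ℝ) - LP I :=
  ⟨scale 4000000000000 Vale.Agent.Lib.P302.D191.items, Vale.Agent.Lib.P302.D191.main.1,
    Vale.Agent.Lib.P302.D191.main.2⟩

end Vale.Agent.Results.P302.A_gap_191_156
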